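import Vale.Agent.P251CD.Tp

/-!
# P251CD: saturated weak Hausdorff objects are closed under coproducts
-/

set_option linter.all false

open CategoryTheory Topology OnePoint Limits Set

namespace Vale.Agent.P251CD

open Vale.Agent.P251.H Vale.Agent.P251.H.PQ

/-- every continuous map from a compact Hausdorff space to `Tp A` is a plot -/
def Sat (A : PQ) : Prop :=
  ∀ (K : CH) (g : K → Tp A), Continuous g → A.plot K (fun k => un (g k))

/-- images of compact Hausdorff spaces in `Tp A` are closed -/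
def WHp (A : PQ) : Prop := ∀ (K : CH) (g : K → Tp A), Continuous g → IsClosed (range g)

theorem WHp.t1 {A : PQ} (h : WHp A) : T1Space (Tp A) :=
  ⟨fun x => by simpa using h (CH.of Unit) (fun _ => x) continuous_const⟩

theorem sat_ofTop (Y : Type) [TopologicalSpace Y] (y : Y) : Sat (ofTop Y y) :=
  fun _ _ hg => (cont_counit Y y).comp hg

theorem whp_ofTop (Y : Type) [TopologicalSpace Y] (y : Y)
    (h : ∀ (K : CH) (g : K → Y), Continuous g → IsClosed (range g)) : WHp (ofTop Y y) := by
  intro K g hg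
  have h1 := (h K _ ((cont_counit Y y).comp hg)).preimage (cont_counit Y y)
  convert h1 using 1
  ext x
  exact ⟨fun ⟨k, e⟩ => ⟨k, congrArg (fun z => Pt.equiv Y y (un z)) e⟩,
    fun ⟨k, e⟩ => ⟨k, (Pt.equiv Y y).injective e⟩⟩

theorem Sat.of_retract {A B : PQ} (h : Sat B) (i : A ⟶ B) (r : B ⟶ A) (e : i ≫ r = 𝟙 A) :
    Sat A := by
  intro K g hg
  have h1 := app_plot r (h K _ ((cont_tmap i).comp hg))
  convert h1 using 2 with k
  change un (g k) = app r (app i (un (g k)))
  rw [← app_comp, e, app_id]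

theorem Sat.of_iso {A B : PQ} (h : Sat B) (e : A ≅ B) : Sat A :=
  h.of_retract e.hom e.inv e.hom_inv_id

/-- `WHp` passes to the source of an injective morphism -/
theorem WHp.of_inj {A B : PQ} (h : WHp B) (i : A ⟶ B) (hi : Function.Injective (app i)) :
    WHp A := by
  intro K g hg
  have h1 := (h K _ ((cont_tmap i).comp hg)).preimage (cont_tmap i)
  convert h1 using 1
  ext x
  exact ⟨fun ⟨k, e⟩ => ⟨k, congrArg (tmap i) e⟩, fun ⟨k, e⟩ => ⟨k, hi e⟩⟩

theorem WHp.of_iso {A B : PQ} (h : WHp B) (e : A ≅ B) : WHp A :=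
  h.of_inj e.hom (Function.LeftInverse.injective (g := app e.inv) fun x => by
    rw [← app_comp, e.hom_inv_id, app_id])

theorem cont_un_ofLC (X : Vale.Agent.P251.G.LC) :
    @Continuous (Tp (ofLC X)) (OnePoint X) _ _ (fun x => un x) := cont_iff.2 (fun _ _ hp => hp)

theorem cont_mk_ofLC (X : Vale.Agent.P251.G.LC) :
    @Continuous (OnePoint X) (Tp (ofLC X)) _ _ (fun x => mk (X := ofLC X) x) :=
  cont_plot (X := ofLC X) (K := CH.of (OnePoint X)) (p := fun x => x) continuous_id

theorem sat_ofLC (X : Vale.Agent.P251.G.LC) : Sat (ofLC X) :=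
  fun _ _ hg => (cont_un_ofLC X).comp hg

theorem whp_ofLC (X : Vale.Agent.P251.G.LC) : WHp (ofLC X) := by
  intro K g hg
  have h1 := (isCompact_range ((cont_un_ofLC X).comp hg)).isClosed.preimage (cont_un_ofLC X)
  convert h1 using 1
  ext x
  exact ⟨fun ⟨k, e⟩ => ⟨k, e⟩, fun ⟨k, e⟩ => ⟨k, e⟩⟩

theorem good_of_isZero {A : PQ} (h : IsZero A) : Sat A ∧ WHp A := by
  have e : ∀ x : OnePoint A, x = ∞ := fun x => by
    rw [← app_id A x, h.eq_of_src (𝟙 A) 0, app_zero]
  refine ⟨fun K g _ => ?_, fun K g _ => ?_⟩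
  · rw [show (fun k => un (g k)) = fun _ => ∞ from funext fun k => e _]
    exact A.plot_const _ _
  · have : Subsingleton (Tp A) := ⟨fun x y => (e x).trans (e y).symm⟩
    exact isClosed_discrete _

theorem finite_of_closed {W : Type*} [TopologicalSpace W] {s t : Set W} (hs : IsCompact s)
    (hts : t ⊆ s) (hcl : ∀ t' ⊆ t, IsClosed t') : t.Finite := by
  have hc : IsCompact t := hs.of_isClosed_subset (hcl t Subset.rfl) hts
  obtain ⟨u, -, hu⟩ := hc.elim_nhds_subcover (fun x => (t \ {x})ᶜ) fun x _ =>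
    (hcl _ sdiff_subset).isOpen_compl.mem_nhds (by simp)
  refine u.finite_toSet.subset fun y hy => ?_
  obtain ⟨x, hx, hy'⟩ := mem_iUnion₂.mp (hu hy)
  have : y = x := by
    by_contra hne
    exact hy' ⟨hy, hne⟩
  rw [this]
  exact hx

/-- a closed subset of a compact Hausdorff space -/
abbrev sub (K : CH) (C : Set K) (hC : IsClosed C) : CH :=
  @CH.of C _ (isCompact_iff_compactSpace.1 hC.isCompact) _

/-- gluing plots along a finite closed cover -/
theorem plot_glue (X : PQ) {ι : Type} {s : Set ι} (hs : s.Finite) :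
    ∀ {K : CH} (f : K → OnePoint X) (C : ι → Set K) (g : ι → K → OnePoint X),
      (∀ i, IsClosed (C i)) → (∀ i, X.plot K (g i)) → (∀ i, ∀ k ∈ C i, f k = g i k) →
      (∀ k, ∃ i ∈ s, k ∈ C i) → X.plot K f := by
  induction s, hs using Set.Finite.induction_on with
  | empty =>
    intro K f C g _ _ _ hc
    have : f = fun _ => ∞ := funext fun k => by simpa using hc k
    rw [this]
    exact X.plot_const _ _
  | @insert i s _ hs ih =>
    intro K f C g hC hg he hc
    have hD : IsClosed (⋃ j ∈ s, C j) := hs.isClosed_biUnion fun j _ => hC j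
    refine X.plot_cover (K := sub K _ (hC i)) (L := sub K _ hD) f Subtype.val Subtype.val
      continuous_subtype_val continuous_subtype_val (fun k => ?_) ?_ ?_
    · obtain ⟨j, hj, hk⟩ := hc k
      rcases hj with rfl | hj
      · exact Or.inl ⟨⟨k, hk⟩, rfl⟩
      · exact Or.inr ⟨⟨k, mem_biUnion hj hk⟩, rfl⟩
    · have := X.plot_comp (L := sub K _ (hC i)) Subtype.val _ continuous_subtype_val (hg i)
      convert this using 2 with k
      exact he i _ k.2
    · refine ih (K := sub K _ hD) _ (fun j => Subtype.val ⁻¹' C j) (fun j k => g j k.1)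
        (fun j => (hC j).preimage continuous_subtype_val)
        (fun j => X.plot_comp (L := sub K _ hD) Subtype.val _ continuous_subtype_val (hg j))
        (fun j k hk => he j _ hk) (fun k => ?_)
      obtain ⟨j, hj, hk⟩ := mem_iUnion₂.1 k.2
      exact ⟨j, hj, hk⟩

section wedge

variable {ι : Type} {X : Discrete ι ⥤ PQ} {c : Cocone X}

open Classical in
/-- the projection of a coproduct to a summand -/
noncomputable def wpr (hc : IsColimit c) (i : Discrete ι) : c.pt ⟶ X.obj i :=
  hc.desc ⟨X.obj i, Discrete.natTrans (fun j => if h : j = i then eqToHom (by rw [h]; rfl) else 0)⟩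

theorem wpr_self (hc : IsColimit c) (i : Discrete ι) (x : OnePoint (X.obj i)) :
    app (wpr hc i) (app (c.ι.app i) x) = x := by
  have h : c.ι.app i ≫ wpr hc i = 𝟙 _ := (hc.fac _ i).trans (dif_pos rfl)
  exact (congrArg (fun u => app u x) h).trans (app_id _ x)

theorem wpr_ne (hc : IsColimit c) {i j : Discrete ι} (h : j ≠ i) (x : OnePoint (X.obj j)) :
    app (wpr hc i) (app (c.ι.app j) x) = ∞ := by
  have h : c.ι.app j ≫ wpr hc i = 0 := (hc.fac _ j).trans (dif_neg h)
  exact congrArg (fun u => app u x) h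

theorem wpr_eq (hc : IsColimit c) (i : Discrete ι) (w : OnePoint c.pt)
    (h : ∀ j, j ≠ i → app (wpr hc j) w = ∞) : app (c.ι.app i) (app (wpr hc i) w) = w := by
  rcases isColimit_exists hc w with rfl | ⟨j, y, rfl⟩
  · rw [app_infty]; exact app_infty _
  · by_cases e : j = i
    · subst e
      rw [wpr_self]
    · have := h j e
      rw [wpr_self] at this
      subst this
      rw [wpr_ne hc e]
      exact (app_infty _).trans (app_infty _).symm

theorem wpr_other (hc : IsColimit c) {i : Discrete ι} {w : OnePoint c.pt}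
    (h : app (wpr hc i) w ≠ ∞) (j : Discrete ι) (e : j ≠ i) : app (wpr hc j) w = ∞ := by
  rcases isColimit_exists hc w with rfl | ⟨l, y, rfl⟩
  · exact app_infty _
  · by_cases e' : l = i
    · subst e'
      exact wpr_ne hc e.symm y
    · exact absurd (wpr_ne hc e' y) h

theorem wpr_infty (hc : IsColimit c) {w : OnePoint c.pt} (h : ∀ j, app (wpr hc j) w = ∞) :
    w = ∞ := by
  rcases isColimit_exists hc w with rfl | ⟨l, y, rfl⟩
  · rfl
  · have := h l
    rw [wpr_self] at this
    subst this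
    exact app_infty _

/-- the summands which are met by a set -/
def wsupp (hc : IsColimit c) (s : Set (OnePoint c.pt)) : Set (Discrete ι) :=
  {i | ∃ w ∈ s, app (wpr hc i) w ≠ ∞}

theorem wsupp_mono (hc : IsColimit c) {s t : Set (OnePoint c.pt)} (h : s ⊆ t) :
    wsupp hc s ⊆ wsupp hc t := fun _ ⟨w, hw, e⟩ => ⟨w, h hw, e⟩

theorem wsupp_plot (hc : IsColimit c) {K : CH} {p : K → OnePoint c.pt} (hp : c.pt.plot K p) :
    (wsupp hc (range p)).Finite := by
  have key := isColimit_plot hc hp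
  clear hp
  induction key with
  | base f hf =>
    obtain ⟨j, a, -, rfl⟩ := hf
    refine (finite_singleton j).subset ?_
    rintro i ⟨_, ⟨k, rfl⟩, e⟩
    by_contra h
    exact e (wpr_ne hc (Ne.symm h) _)
  | const K x =>
    refine Set.Subsingleton.finite ?_
    rintro i ⟨_, ⟨k, rfl⟩, e⟩ j ⟨_, ⟨k, rfl⟩, e'⟩
    by_contra h
    exact e (wpr_other hc e' i h)
  | comp g f _ _ ih => exact ih.subset (wsupp_mono hc (by rintro _ ⟨l, rfl⟩; exact ⟨_, rfl⟩))
  | sum f _ _ ih1 ih2 =>
    refine (ih1.union ih2).subset ?_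
    rintro i ⟨_, ⟨k | k, rfl⟩, e⟩
    · exact Or.inl ⟨_, ⟨k, rfl⟩, e⟩
    · exact Or.inr ⟨_, ⟨k, rfl⟩, e⟩
  | surj g f _ hs _ ih =>
    refine ih.subset (wsupp_mono hc ?_)
    rintro _ ⟨k, rfl⟩
    obtain ⟨l, rfl⟩ := hs k
    exact ⟨l, rfl⟩

theorem closed_wpr (hc : IsColimit c) (h1 : ∀ i, T1Space (Tp (X.obj i))) (i : Discrete ι)
    (x : OnePoint (X.obj i)) : IsClosed {w : Tp c.pt | app (wpr hc i) (un w) = x} :=
  (isClosed_singleton (x := mk x)).preimage (cont_tmap (wpr hc i))

theorem closed_summand (hc : IsColimit c) (h1 : ∀ i, T1Space (Tp (X.obj i))) (i : Discrete ι) :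
    IsClosed {w : Tp c.pt | ∀ j, j ≠ i → app (wpr hc j) (un w) = ∞} := by
  simp only [setOf_forall]
  exact isClosed_iInter fun j => isClosed_iInter fun _ => closed_wpr hc h1 j ∞

theorem wedge_t1 (hc : IsColimit c) (h1 : ∀ i, T1Space (Tp (X.obj i))) : T1Space (Tp c.pt) := by
  refine ⟨fun w => ?_⟩
  have : ({w} : Set (Tp c.pt)) = ⋂ i, {v | app (wpr hc i) (un v) = app (wpr hc i) (un w)} := by
    ext v
    simp only [mem_singleton_iff, mem_iInter, mem_setOf_eq]
    refine ⟨fun e _ => by rw [e], fun h => ?_⟩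
    by_cases e : ∃ i, app (wpr hc i) (un w) ≠ ∞
    · obtain ⟨i, e⟩ := e
      have e1 := wpr_eq hc i _ (wpr_other hc e)
      have e2 := wpr_eq hc i _ (wpr_other hc (by rw [h i]; exact e))
      rw [h i] at e2
      exact e2.symm.trans e1
    · push Not at e
      exact (wpr_infty hc (fun j => (h j).trans (e j))).trans (wpr_infty hc e).symm
  rw [this]
  exact isClosed_iInter fun i => closed_wpr hc h1 i _

/-- a compact subset of a wedge meets finitely many summands -/
theorem wsupp_compact (hc : IsColimit c) (h1 : ∀ i, T1Space (Tp (X.obj i))) {s : Set (Tp c.pt)}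
    (hs : IsCompact s) : {i | ∃ w ∈ s, app (wpr hc i) (un w) ≠ ∞}.Finite := by
  have := wedge_t1 hc h1
  let S := {i | ∃ w ∈ s, app (wpr hc i) (un w) ≠ ∞}
  have hS : ∀ i : S, ∃ w ∈ s, app (wpr hc i) (un w) ≠ ∞ := fun i => i.2
  choose w hw hw' using hS
  have hinj : Function.Injective w := fun i j e => Subtype.ext (by
    by_contra h
    exact hw' i (wpr_other hc (by rw [e]; exact hw' j) i h))
  have hfin : (range w).Finite := by
    refine finite_of_closed hs (by rintro _ ⟨i, rfl⟩; exact hw i) fun t ht => ?_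
    refine isClosed_iff.2 fun K p hp => ?_
    have h2 : (t ∩ w '' (Subtype.val ⁻¹' wsupp hc (range p))).Finite :=
      (((wsupp_plot hc hp).preimage Subtype.val_injective.injOn).image w).subset inter_subset_right
    convert h2.isClosed.preimage (cont_plot hp) using 1
    ext k
    refine ⟨fun hk => ⟨hk, ?_⟩, fun hk => hk.1⟩
    obtain ⟨i, hi⟩ := ht hk
    exact ⟨i, ⟨p k, ⟨k, rfl⟩, by have := hw' i; rw [hi] at this; exact this⟩, hi⟩
  exact (finite_range_iff hinj).1 hfin

/-- a coproduct of saturated `T1` objects is saturated -/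
theorem sat_wedge (hc : IsColimit c) (h1 : ∀ i, T1Space (Tp (X.obj i)))
    (hs : ∀ i, Sat (X.obj i)) : Sat c.pt := by
  intro K g hg
  have := wedge_t1 hc h1
  have hf := wsupp_compact hc h1 (isCompact_range hg)
  refine plot_glue c.pt ((hf.image Option.some).insert none) _
    (fun o => o.elim (g ⁻¹' {mk ∞})
      (fun i => g ⁻¹' {w | ∀ j, j ≠ i → app (wpr hc j) (un w) = ∞}))
    (fun o k => o.elim ∞ (fun i => app (c.ι.app i) (app (wpr hc i) (un (g k))))) ?_ ?_ ?_ ?_
  · rintro (_ | i)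
    · exact isClosed_singleton.preimage hg
    · exact (closed_summand hc h1 i).preimage hg
  · rintro (_ | i)
    · exact c.pt.plot_const _ _
    · exact app_plot (c.ι.app i) (hs i K _ ((cont_tmap (wpr hc i)).comp hg))
  · rintro (_ | i) k hk
    · exact hk
    · exact (wpr_eq hc i _ hk).symm
  · intro k
    by_cases e : ∃ i, app (wpr hc i) (un (g k)) ≠ ∞
    · obtain ⟨i, e⟩ := e
      exact ⟨Option.some i, Or.inr ⟨i, ⟨_, ⟨k, rfl⟩, e⟩, rfl⟩, wpr_other hc e⟩
    · push Not at e
      exact ⟨none, Or.inl rfl, wpr_infty hc e⟩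

/-- a coproduct of weak Hausdorff objects is weak Hausdorff -/
theorem whp_wedge (hc : IsColimit c) (hw : ∀ i, WHp (X.obj i)) : WHp c.pt := by
  intro K g hg
  have h1 := fun i => (hw i).t1
  have := wedge_t1 hc h1
  have hf := wsupp_compact hc h1 (isCompact_range hg)
  let C : Discrete ι → Set (Tp c.pt) := fun i => {w | ∀ j, j ≠ i → app (wpr hc j) (un w) = ∞}
  have hC : ∀ i, IsClosed (g ⁻¹' C i) := fun i => (closed_summand hc h1 i).preimage hg
  have h2 : ∀ i, IsClosed (range g ∩ C i) := fun i => by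
    have h3 := (hw i (sub K _ (hC i)) (fun k => tmap (wpr hc i) (g k.1))
      ((cont_tmap _).comp (hg.comp continuous_subtype_val))).preimage (cont_tmap (wpr hc i))
    convert h3.inter (closed_summand hc h1 i) using 1
    ext v
    refine ⟨fun ⟨⟨k, e⟩, hv⟩ => ⟨⟨⟨k, by rw [← e] at hv; exact hv⟩, congrArg (tmap _) e⟩, hv⟩,
      fun ⟨⟨k, e⟩, hv⟩ => ⟨⟨k.1, ?_⟩, hv⟩⟩
    have e1 := wpr_eq hc i _ hv
    have e2 := wpr_eq hc i _ k.2
    have e3 : app (wpr hc i) (un (g k.1)) = app (wpr hc i) (un v) := e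
    rw [e3] at e2
    exact e2.symm.trans e1
  have h4 : (range g ∩ {mk ∞}).Finite := (finite_singleton _).subset inter_subset_right
  convert h4.isClosed.union (hf.isClosed_biUnion fun i _ => h2 i) using 1
  ext v
  refine ⟨fun hv => ?_, fun hv => ?_⟩
  · by_cases e : ∃ i, app (wpr hc i) (un v) ≠ ∞
    · obtain ⟨i, e⟩ := e
      exact Or.inr (mem_biUnion (x := i) ⟨v, hv, e⟩ ⟨hv, wpr_other hc e⟩)
    · push Not at e
      exact Or.inl ⟨hv, wpr_infty hc e⟩
  · rcases hv with hv | hv
    · exact hv.1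
    · obtain ⟨i, -, hv⟩ := mem_iUnion₂.1 hv
      exact hv.1

/-- R6 -/
theorem wedge (hc : IsColimit c) (h : ∀ i, Sat (X.obj i) ∧ WHp (X.obj i)) :
    Sat c.pt ∧ WHp c.pt :=
  ⟨sat_wedge hc (fun i => (h i).2.t1) (fun i => (h i).1), whp_wedge hc (fun i => (h i).2)⟩

end wedge

end Vale.Agent.P251CD
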