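import Vale.Agent.P251.H.PQColim
import Vale.Agent.P251.H.PQLC
import Mathlib.Topology.Maps.OpenQuotient
import Mathlib.Topology.CompactOpen

/-!
# P251CD: the topological space of a quasi-topological space

`Tp X`: the points of `X : PQ` with the final topology for all plots.  `ofTop Y y`: the pointed
quasi-topological space of a pointed topological space.  Functions out of colimits.
-/

set_option linter.all false

open CategoryTheory Topology OnePoint Limits

namespace Vale.Agent.P251CD

open Vale.Agent.P251.H Vale.Agent.P251.H.PQ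

/-- the points of `X`, with the final topology for the plots -/
def Tp (X : PQ) : Type := OnePoint X

/-- a point as a point of `Tp X` -/
def mk {X : PQ} (x : OnePoint X) : Tp X := x

instance (X : PQ) : TopologicalSpace (Tp X) where
  IsOpen U := ∀ (K : CH) (p : K → OnePoint X), X.plot K p → IsOpen ((fun k => mk (p k)) ⁻¹' U)
  isOpen_univ := fun _ _ _ => isOpen_univ
  isOpen_inter _ _ hU hV := fun K p hp => (hU K p hp).inter (hV K p hp)
  isOpen_sUnion s hs := fun K p hp => by
    rw [Set.preimage_sUnion]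
    exact isOpen_biUnion (fun U hU => hs U hU K p hp)

/-- a point of `Tp X` as a point -/
def un {X : PQ} (x : Tp X) : OnePoint X := x

@[simp] theorem un_mk {X : PQ} (x : OnePoint X) : un (mk x) = x := rfl
@[simp] theorem mk_un {X : PQ} (x : Tp X) : mk (un x) = x := rfl

theorem isOpen_iff {X : PQ} {U : Set (Tp X)} :
    IsOpen U ↔ ∀ (K : CH) (p : K → OnePoint X), X.plot K p → IsOpen ((fun k => mk (p k)) ⁻¹' U) :=
  Iff.rfl

theorem isClosed_iff {X : PQ} {U : Set (Tp X)} :
    IsClosed U ↔
      ∀ (K : CH) (p : K → OnePoint X), X.plot K p → IsClosed ((fun k => mk (p k)) ⁻¹' U) := by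
  rw [← isOpen_compl_iff, isOpen_iff]
  simp only [Set.preimage_compl, isOpen_compl_iff]

/-- plots are continuous -/
theorem cont_plot {X : PQ} {K : CH} {p : K → OnePoint X} (hp : X.plot K p) :
    Continuous (fun k => mk (p k)) := ⟨fun _ hU => hU K p hp⟩

/-- continuity of functions out of `Tp X` -/
theorem cont_iff {X : PQ} {Z : Type*} [TopologicalSpace Z] {f : Tp X → Z} :
    Continuous f ↔
      ∀ (K : CH) (p : K → OnePoint X), X.plot K p → Continuous (fun k => f (mk (p k))) :=
  ⟨fun hf _ _ hp => hf.comp (cont_plot hp),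
    fun h => ⟨fun _ hU K p hp => hU.preimage (h K p hp)⟩⟩

/-- the map on points -/
def tmap {X Y : PQ} (f : X ⟶ Y) (x : Tp X) : Tp Y := mk (app f (un x))

@[simp] theorem tmap_mk {X Y : PQ} (f : X ⟶ Y) (x : OnePoint X) :
    tmap f (mk x) = mk (app f x) := rfl

theorem cont_tmap {X Y : PQ} (f : X ⟶ Y) : Continuous (tmap f) :=
  cont_iff.2 (fun _ _ hp => cont_plot (app_plot f hp))

/-- continuity on products with a locally compact space -/
theorem cont_prod {X : PQ} {L Z : Type*} [TopologicalSpace L] [LocallyCompactSpace L]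
    [TopologicalSpace Z] {f : Tp X × L → Z}
    (h : ∀ (K : CH) (p : K → OnePoint X), X.plot K p →
      Continuous (fun q : K × L => f (mk (p q.1), q.2))) : Continuous f := by
  have h1 : ∀ x : Tp X, Continuous (fun l => f (x, l)) := fun x =>
    (h (CH.of Unit) (fun _ => un x) (X.plot_const _ _)).comp
      (f := fun l : L => (((), l) : Unit × L)) (by fun_prop)
  let g : Tp X → C(L, Z) := fun x => ⟨fun l => f (x, l), h1 x⟩
  have hg : Continuous g := cont_iff.2 (fun K p hp =>
    (ContinuousMap.curry ⟨_, h K p hp⟩).continuous)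
  exact ContinuousMap.continuous_uncurry_of_continuous ⟨g, hg⟩

theorem cont_prod' {X : PQ} {L Z : Type*} [TopologicalSpace L] [LocallyCompactSpace L]
    [TopologicalSpace Z] {f : L × Tp X → Z}
    (h : ∀ (K : CH) (p : K → OnePoint X), X.plot K p →
      Continuous (fun q : L × K => f (q.1, mk (p q.2)))) : Continuous f :=
  (cont_prod (f := fun q : Tp X × L => f (q.2, q.1))
    (fun K p hp => (h K p hp).comp continuous_swap)).comp continuous_swap

/-- the pointed quasi-topological space of a pointed topological space -/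
noncomputable abbrev ofTop (Y : Type) [TopologicalSpace Y] (y : Y) : PQ where
  carrier := Pt Y y
  plot K f := Continuous (fun k => Pt.equiv Y y (f k))
  plot_const _ _ := continuous_const
  plot_comp := fun _ _ hg hf => hf.comp hg
  plot_sum := fun {K L} f h1 h2 => continuous_sum_dom.2 ⟨h1, h2⟩
  plot_surj := fun g f hg hs hf =>
    continuous_of_surj g hg hs (fun k => Pt.equiv Y y (f k)) hf

theorem ofTop_plot {Y : Type} [TopologicalSpace Y] {y : Y} {K : CH} {g : K → Y}
    (hg : Continuous g) : (ofTop Y y).plot K (fun k => (Pt.equiv Y y).symm (g k)) := by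
  change Continuous (fun k => Pt.equiv Y y ((Pt.equiv Y y).symm (g k)))
  simpa only [Equiv.apply_symm_apply] using hg

/-- the counit `Tp (ofTop Y y) → Y` is continuous -/
theorem cont_counit (Y : Type) [TopologicalSpace Y] (y : Y) :
    Continuous (fun x : Tp (ofTop Y y) => Pt.equiv Y y (un x)) :=
  cont_iff.2 (fun _ _ hp => hp)

/-- a continuous pointed map `Tp X → Y` as a morphism -/
noncomputable def toTop {X : PQ} {Y : Type} [TopologicalSpace Y] {y : Y} (f : Tp X → Y)
    (hf : Continuous f) (h0 : f (mk ∞) = y) : X ⟶ ofTop Y y :=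
  ⟨fun x => (Pt.equiv Y y).symm (f (mk x)), by rw [h0]; exact Pt.equiv_symm_base _ _,
    fun _ _ hp => ofTop_plot (hf.comp (cont_plot hp))⟩

theorem app_toTop {X : PQ} {Y : Type} [TopologicalSpace Y] {y : Y} (f : Tp X → Y)
    (hf : Continuous f) (h0 : f (mk ∞) = y) (x : OnePoint X) :
    Pt.equiv Y y (app (toTop f hf h0) x) = f (mk x) :=
  (Pt.equiv Y y).apply_symm_apply _

theorem cont_ofHom {X : PQ} {Y : Type} [TopologicalSpace Y] {y : Y} (f : X ⟶ ofTop Y y) :
    Continuous (fun x : Tp X => Pt.equiv Y y (app f (un x))) :=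
  (cont_counit Y y).comp (cont_tmap f)

section colim

variable {J : Type} [Category.{0} J] {F : J ⥤ PQ} {c : Cocone F}

/-- continuous functions out of a colimit -/
theorem colim_desc (hc : IsColimit c) {T : Type} [TopologicalSpace T] (t : T)
    (φ : ∀ j, Tp (F.obj j) → T) (hφ : ∀ j, Continuous (φ j)) (h0 : ∀ j, φ j (mk ∞) = t)
    (hn : ∀ {i j : J} (f : i ⟶ j) (x : OnePoint (F.obj i)),
      φ j (mk (app (F.map f) x)) = φ i (mk x)) :
    ∃ ψ : Tp c.pt → T, Continuous ψ ∧ ψ (mk ∞) = t ∧
      ∀ j x, ψ (mk (app (c.ι.app j) x)) = φ j (mk x) := by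
  let s : Cocone F :=
    { pt := ofTop T t
      ι :=
        { app := fun j => toTop (φ j) (hφ j) (h0 j)
          naturality := fun i j f => by
            apply hom_ext'
            intro x
            exact congrArg (Pt.equiv T t).symm (hn f x) } }
  refine ⟨fun x => Pt.equiv T t (app (hc.desc s) (un x)), cont_ofHom (hc.desc s), ?_, ?_⟩
  · exact congrArg (Pt.equiv T t) (app_infty (hc.desc s))
  · intro j x
    have h1 := congrArg (fun u => Pt.equiv T t (app u x)) (hc.fac s j)
    exact h1.trans (app_toTop (φ j) (hφ j) (h0 j) x)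

/-- functions out of a colimit -/
theorem colim_desc_set (hc : IsColimit c) {T : Type} (t : T)
    (φ : ∀ j, OnePoint (F.obj j) → T) (h0 : ∀ j, φ j ∞ = t)
    (hn : ∀ {i j : J} (f : i ⟶ j) (x : OnePoint (F.obj i)), φ j (app (F.map f) x) = φ i x) :
    ∃ ψ : OnePoint c.pt → T, ψ ∞ = t ∧ ∀ j x, ψ (app (c.ι.app j) x) = φ j x := by
  letI : TopologicalSpace T := ⊤
  obtain ⟨ψ, -, h1, h2⟩ := colim_desc hc t (fun j x => φ j (un x)) (fun _ => continuous_top)
    h0 (fun f x => hn f x)
  exact ⟨fun x => ψ (mk x), h1, h2⟩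

/-- continuity of a function out of a colimit -/
theorem colim_cont (hc : IsColimit c) {T : Type} [TopologicalSpace T] {ψ : Tp c.pt → T}
    (h : ∀ j, Continuous (fun x : Tp (F.obj j) => ψ (tmap (c.ι.app j) x))) : Continuous ψ := by
  refine cont_iff.2 (fun K p hp => ?_)
  have key := isColimit_plot hc hp
  clear hp
  induction key with
  | base f hf =>
    obtain ⟨j, a, ha, rfl⟩ := hf
    exact (h j).comp (cont_plot ha)
  | const K x => exact continuous_const
  | comp g f hg _ ih => exact ih.comp hg
  | sum f _ _ ih1 ih2 => exact continuous_sum_dom.2 ⟨ih1, ih2⟩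
  | surj g f hg hs _ ih => exact continuous_of_surj g hg hs (fun k => ψ (mk (f k))) ih

end colim

section push

variable {A B X P : PQ} {i : A ⟶ B} {u : A ⟶ X} {j : B ⟶ P} {k : X ⟶ P}

theorem push_desc (h : IsPushout i u j k) {T : Type} [TopologicalSpace T]
    (g : Tp B → T) (f : Tp X → T) (hg : Continuous g) (hf : Continuous f)
    (w : ∀ a, g (mk (app i a)) = f (mk (app u a))) :
    ∃ ψ : Tp P → T, Continuous ψ ∧ (∀ b, ψ (mk (app j b)) = g (mk b)) ∧
      ∀ x, ψ (mk (app k x)) = f (mk x) := by
  have h0 : g (mk ∞) = f (mk ∞) := by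
    have := w ∞
    rwa [app_infty, app_infty] at this
  have w' : i ≫ toTop g hg h0 = u ≫ toTop f hf rfl := by
    apply hom_ext'
    intro a
    exact congrArg (Pt.equiv T (f (mk ∞))).symm (w a)
  refine ⟨fun x => Pt.equiv T _ (app (h.desc _ _ w') (un x)), cont_ofHom _, ?_, ?_⟩
  · intro b
    exact (congrArg (fun v => Pt.equiv T _ (app v b)) (h.inl_desc _ _ w')).trans
      (app_toTop g hg h0 b)
  · intro x
    exact (congrArg (fun v => Pt.equiv T _ (app v x)) (h.inr_desc _ _ w')).trans
      (app_toTop f hf rfl x)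

theorem push_desc_set (h : IsPushout i u j k) {T : Type}
    (g : OnePoint B → T) (f : OnePoint X → T) (w : ∀ a, g (app i a) = f (app u a)) :
    ∃ ψ : OnePoint P → T, (∀ b, ψ (app j b) = g b) ∧ ∀ x, ψ (app k x) = f x := by
  letI : TopologicalSpace T := ⊤
  obtain ⟨ψ, -, h1, h2⟩ := push_desc h (fun x => g (un x)) (fun x => f (un x)) continuous_top
    continuous_top w
  exact ⟨fun x => ψ (mk x), h1, h2⟩

theorem push_exists (h : IsPushout i u j k) (p : OnePoint P) :
    (∃ b, app j b = p) ∨ ∃ x, app k x = p := by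
  rcases isColimit_exists h.isColimit p with rfl | ⟨l, y, rfl⟩
  · exact Or.inr ⟨∞, app_infty k⟩
  · rcases l with _ | _ | _
    · exact Or.inl ⟨app i y, congrArg (fun v => app v y) (h.cocone.w WalkingSpan.Hom.fst)⟩
    · exact Or.inl ⟨y, rfl⟩
    · exact Or.inr ⟨y, rfl⟩

/-- the points of a pushout along an injection -/
theorem push_sets (h : IsPushout i u j k) (hi : Function.Injective (app i)) :
    Function.Injective (app k) ∧ (∀ b x, app j b = app k x → ∃ a, app i a = b) ∧
      ∀ b b', app j b = app j b' → b = b' ∨ ∃ a, app i a = b := by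
  classical
  let g : OnePoint B → OnePoint X ⊕ OnePoint B := fun b =>
    if hb : ∃ a, app i a = b then Sum.inl (app u hb.choose) else Sum.inr b
  have hg : ∀ a, g (app i a) = Sum.inl (app u a) := fun a => by
    have hb : ∃ a', app i a' = app i a := ⟨a, rfl⟩
    change dite _ _ _ = _
    rw [dif_pos hb, hi hb.choose_spec]
  have hg' : ∀ b, (¬ ∃ a, app i a = b) → g b = Sum.inr b := fun b hb => dif_neg hb
  obtain ⟨ψ, h1, h2⟩ := push_desc_set h g Sum.inl hg
  refine ⟨fun x y e => ?_, fun b x e => ?_, fun b b' e => ?_⟩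
  · have := congrArg ψ e
    rw [h2, h2] at this
    exact Sum.inl_injective this
  · by_contra hb
    have := congrArg ψ e
    rw [h1, h2, hg' b hb] at this
    cases this
  · by_cases hb : ∃ a, app i a = b
    · exact Or.inr hb
    · have := congrArg ψ e
      rw [h1, h1, hg' b hb] at this
      by_cases hb' : ∃ a, app i a = b'
      · obtain ⟨a, rfl⟩ := hb'
        rw [hg] at this
        cases this
      · rw [hg' b' hb'] at this
        exact Or.inl (Sum.inr_injective this)

end push

end Vale.Agent.P251CD
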